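import Vale.Agent.Lib.P064.ls.StepCount

/-!
# Attached extension problems

`Attached F X T` says that the vertices of `T` outside `X` can be added to `X` one at a time,
each new vertex being adjacent in `F` to a vertex already present. Equivalently, every set `Y`
with `X ⊆ Y ⊂ T` sends an edge of `F` to `T \ Y`.
-/

namespace Vale.Agent.Lib.P064.H49

open Finset SimpleGraph Vale.Agent.KK Vale.Agent.KK.LS Vale.Agent.Lib.P064.LS

variable {W : Type*} [DecidableEq W]

/-- Every set `Y` with `X ⊆ Y ⊂ T` has a vertex adjacent in `F` to a vertex of `T \ Y`. -/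
def Attached (F : SimpleGraph W) (X T : Finset W) : Prop :=
  ∀ Y : Finset W, X ⊆ Y → Y ⊂ T → ∃ z ∈ T \ Y, ∃ y ∈ Y, F.Adj y z

/-- Unfolding of `Attached` (stated here so that the equation lemmas of the definition are
generated in this file and nowhere else). -/
theorem attached_iff (F : SimpleGraph W) (X T : Finset W) :
    Attached F X T ↔ ∀ Y : Finset W, X ⊆ Y → Y ⊂ T → ∃ z ∈ T \ Y, ∃ y ∈ Y, F.Adj y z := by
  unfold Attached
  exact Iff.rfl

theorem attached_eq_anchor (F : SimpleGraph W) (X T : Finset W) :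
    Attached F X T = ∀ Y : Finset W, X ⊆ Y → Y ⊂ T → ∃ z ∈ T \ Y, ∃ y ∈ Y, F.Adj y z :=
  Attached.eq_1 F X T

theorem attached_eq_def_anchor (F : SimpleGraph W) (X T : Finset W) :
    Attached F X T = ∀ Y : Finset W, X ⊆ Y → Y ⊂ T → ∃ z ∈ T \ Y, ∃ y ∈ Y, F.Adj y z :=
  Attached.eq_def F X T

theorem Attached.mono {F : SimpleGraph W} {X X' T : Finset W} (hA : Attached F X T)
    (hXX' : X ⊆ X') : Attached F X' T :=
  fun Y hY hYT => hA Y (hXX'.trans hY) hYT

theorem Attached.insert {F : SimpleGraph W} {X T : Finset W} (hA : Attached F X T) (z : W) :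
    Attached F (insert z X) T :=
  hA.mono (Finset.subset_insert z X)

end Vale.Agent.Lib.P064.H49
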