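import Vale.Agent.Lib.P064.helper49.Attached

/-!
# The chain over components

If every step from a closed set `S` to a closed set `T` obtained by adding one component of the
pattern is bounded by its weight, then so is the extension from any closed set to the whole
vertex set.
-/

namespace Vale.Agent.Lib.P064.H49

open Finset SimpleGraph Vale.Agent.KK Vale.Agent.KK.LS Vale.Agent.Lib.P064.LS

variable {W : Type*} [Fintype W] [DecidableEq W]

theorem chain_of_step {n : ℕ} (H : SimpleGraph (Fin n)) (F : SimpleGraph W) (c : ℝ)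
    (hc : 0 ≤ c)
    (hstep : ∀ S T : Finset W, S ⊂ T → (∀ y ∈ S, ∀ z, F.Adj y z → z ∈ S) →
        (∀ x ∈ T \ S, Attached F (insert x S) T) → ∀ ψ : W → Fin n,
        ((Ext F H S T ψ).card : ℝ) ≤ wt n c F S T) :
    ∀ S : Finset W, (∀ y ∈ S, ∀ z, F.Adj y z → z ∈ S) → ∀ ψ : W → Fin n,
        ((Ext F H S univ ψ).card : ℝ) ≤ wt n c F S univ := by
  classical
  have key : ∀ k : ℕ, ∀ S : Finset W, (univ \ S).card = k →
      (∀ y ∈ S, ∀ z, F.Adj y z → z ∈ S) →
      ∀ ψ : W → Fin n, ((Ext F H S univ ψ).card : ℝ) ≤ wt n c F S univ := by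
    intro k
    induction k using Nat.strong_induction_on with
    | _ k ih =>
      intro S hk hcl ψ
      by_cases hS : S = univ
      · subst hS
        rw [wt_self]
        exact_mod_cast Ext_self_card F H univ ψ
      · obtain ⟨x0, hx0⟩ : ∃ x0, x0 ∉ S := by
          by_contra hcon
          exact hS (Finset.eq_univ_of_forall (fun x => by_contra (fun hx => hcon ⟨x, hx⟩)))
        obtain ⟨C, hC⟩ : ∃ C : Finset W, ∀ w, w ∈ C ↔ F.Reachable x0 w :=
          ⟨univ.filter (fun w => F.Reachable x0 w), fun w => by simp⟩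
        have hx0C : x0 ∈ C := (hC x0).2 (SimpleGraph.Reachable.refl x0)
        have hST : S ⊂ S ∪ C :=
          ⟨subset_union_left, fun hcon => hx0 (hcon (mem_union_right S hx0C))⟩
        have hTcl : ∀ y ∈ S ∪ C, ∀ z, F.Adj y z → z ∈ S ∪ C := by
          intro y hy z hyz
          rcases mem_union.1 hy with h | h
          · exact mem_union_left _ (hcl y h z hyz)
          · exact mem_union_right _ ((hC z).2 (((hC y).1 h).trans hyz.reachable))
        have hatt : ∀ x ∈ (S ∪ C) \ S, Attached F (insert x S) (S ∪ C) := by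
          intro x hx Y hY hYT
          have hxC : F.Reachable x0 x := by
            have h1 := mem_sdiff.1 hx
            rcases mem_union.1 h1.1 with h | h
            · exact absurd h h1.2
            · exact (hC x).1 h
          obtain ⟨w, hwT, hwY⟩ : ∃ w, w ∈ S ∪ C ∧ w ∉ Y := by
            by_contra hcon
            exact hYT.2 (fun w hw => by_contra (fun hwY => hcon ⟨w, hw, hwY⟩))
          have hSY : S ⊆ Y := (subset_insert x S).trans hY
          have hxY : x ∈ Y := hY (mem_insert_self x S)
          have hwC : F.Reachable x0 w := by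
            rcases mem_union.1 hwT with h | h
            · exact absurd (hSY h) hwY
            · exact (hC w).1 h
          obtain ⟨p⟩ := hxC.symm.trans hwC
          obtain ⟨d, -, hd1, hd2⟩ := p.exists_boundary_dart (Y : Set W) (mem_coe.2 hxY)
            (fun h => hwY (mem_coe.1 h))
          have hadj : F.Adj d.fst d.snd := d.adj
          have hfstT : d.fst ∈ S ∪ C := hYT.1 (mem_coe.1 hd1)
          exact ⟨d.snd, mem_sdiff.2 ⟨hTcl _ hfstT _ hadj, fun h => hd2 (mem_coe.2 h)⟩, d.fst,
            mem_coe.1 hd1, hadj⟩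
        have h1 := hstep S (S ∪ C) hST hcl hatt ψ
        have hlt : (univ \ (S ∪ C)).card < k := by
          rw [← hk]
          apply Finset.card_lt_card
          refine ⟨sdiff_subset_sdiff le_rfl hST.1, fun hcon => ?_⟩
          have h5 : x0 ∈ univ \ (S ∪ C) := hcon (mem_sdiff.2 ⟨mem_univ _, hx0⟩)
          exact (mem_sdiff.1 h5).2 (mem_union_right S hx0C)
        have h2 : ∀ φ : W → Fin n, ((Ext F H (S ∪ C) univ φ).card : ℝ) ≤ wt n c F (S ∪ C) univ :=
          fun φ => ih _ hlt (S ∪ C) rfl hTcl φ
        have h3 := Ext_split_card F H hST.1 (subset_univ (S ∪ C)) ψ (wt n c F (S ∪ C) univ) h2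
        have hwt0 : 0 ≤ wt n c F (S ∪ C) univ := by
          unfold wt
          positivity
        calc ((Ext F H S univ ψ).card : ℝ)
            ≤ ((Ext F H S (S ∪ C) ψ).card : ℝ) * wt n c F (S ∪ C) univ := h3
          _ ≤ wt n c F S (S ∪ C) * wt n c F (S ∪ C) univ := mul_le_mul_of_nonneg_right h1 hwt0
          _ = wt n c F S univ := (wt_mul n c F hST.1 (subset_univ (S ∪ C))).symm
  intro S hcl ψ
  exact key _ S rfl hcl ψ

end Vale.Agent.Lib.P064.H49
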