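import Vale.Agent.Lib.P064.ls.StepCount
import Vale.Agent.Lib.P064.ls.Labelled
import Vale.Agent.Lib.P064.helper49.Attached
import Vale.Agent.Lib.P064.helper14.Rooted
import Vale.Agent.Lib.P064.helper88.BoundedDegArith
import Vale.Agent.Lib.P064.helper49.Chain

/-!
# Hosts of bounded degree

Let `H` be a graph on `n` vertices in which every vertex has at most `D` neighbours, and suppose
that every subgraph of `H` has expected count at least one at density `q`. Then every pattern
graph `F` has at most `n ^ v(F) * (12 * D * q) ^ e(F)` labelled copies in `H`.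

The proof goes component by component. For a component `C` of `F` with `m` vertices and `e'`
edges, take a maximal family of pairwise vertex-disjoint copies of `C` in `H`; their union is a
subgraph of `H`, a sunflower with empty kernel, so the family has at most `t` members with
`t ! ≤ (n ^ m * q ^ e') ^ t`. Every copy of `C` meets a member of the family, and a copy through a
given vertex at a given position is determined by at most `D ^ (m - 1)` choices.
-/

namespace Vale.Agent.Lib.P064.H49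

open Finset SimpleGraph Vale.Agent.KK Vale.Agent.KK.LS Vale.Agent.Lib.P064.LS

variable {W : Type*} [Fintype W] [DecidableEq W]

/-- The sunflower bound with the number of attachment vertices in place of the number of
extension edges, and without an upper bound on the density. -/
theorem sunflower_bound_att {n : ℕ} (hn : 2 ≤ n) (H : SimpleGraph (Fin n)) (F : SimpleGraph W)
    {q : ℝ} (hq0 : 0 ≤ q) (h : SubgraphsExpected n H q) (S T : Finset W) (hST : S ⊆ T)
    (ψ : W → Fin n) (M : Finset (W → Fin n)) (hM : M ⊆ Ext F H S T ψ)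
    (hdisj : ∀ φ ∈ M, ∀ φ' ∈ M, φ ≠ φ' → ∀ x ∈ T \ S, ∀ x' ∈ T \ S, φ x ≠ φ' x') :
    (M.card.factorial : ℝ) ≤ (n : ℝ) ^ (att F S T).card * (wt n q F S T) ^ M.card := by
  classical
  by_cases hTS : T \ S = ∅
  · have hTeq : T = S :=
      Finset.Subset.antisymm (Finset.sdiff_eq_empty_iff_subset.1 hTS) hST
    subst hTeq
    have hc : M.card ≤ 1 := (Finset.card_le_card hM).trans (Ext_self_card F H T ψ)
    rw [wt_self, one_pow, mul_one]
    have hfac : M.card.factorial = 1 := by
      interval_cases M.card <;> rfl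
    rw [hfac, Nat.cast_one]
    exact one_le_pow₀ (by exact_mod_cast (show 1 ≤ n by omega))
  · obtain ⟨z0, hz0⟩ := Finset.nonempty_iff_ne_empty.2 hTS
    have hZne : Nonempty {z // z ∈ T \ S} := ⟨⟨z0, hz0⟩⟩
    have hcardZ : Fintype.card {z // z ∈ T \ S} = (T \ S).card := Fintype.card_coe (T \ S)
    obtain ⟨en, hen⟩ : ∃ en : Fin M.card → W → Fin n,
        en = fun i => ((M.equivFin).symm i).1 := ⟨_, rfl⟩
    have hen_mem : ∀ i, en i ∈ M := fun i => by
      rw [hen]
      exact ((M.equivFin).symm i).2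
    have hen_inj : ∀ i j, i ≠ j → en i ≠ en j := by
      intro i j hij heq
      apply hij
      rw [hen] at heq
      exact (M.equivFin).symm.injective (Subtype.ext heq)
    have hen_surj : ∀ φ ∈ M, ∃ i, en i = φ := by
      intro φ hφ
      refine ⟨M.equivFin ⟨φ, hφ⟩, ?_⟩
      rw [hen]
      show ((M.equivFin).symm (M.equivFin ⟨φ, hφ⟩)).1 = φ
      rw [Equiv.symm_apply_apply]
    obtain ⟨D, hDdef⟩ : ∃ D : Finset (Sym2 (Fin n)),
        D = M.biUnion (fun φ => (extEdges F S T).image (Sym2.map φ)) := ⟨_, rfl⟩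
    have hmemD : ∀ d, d ∈ D ↔ ∃ φ ∈ M, ∃ e ∈ extEdges F S T, Sym2.map φ e = d := by
      intro d
      rw [hDdef, mem_biUnion]
      constructor
      · rintro ⟨φ, hφ, hd⟩
        obtain ⟨e, he, rfl⟩ := mem_image.1 hd
        exact ⟨φ, hφ, e, he, rfl⟩
      · rintro ⟨φ, hφ, e, he, rfl⟩
        exact ⟨φ, hφ, mem_image_of_mem _ he⟩
    have hD : ∀ d ∈ D, d ∈ H.edgeSet := by
      intro d hd
      obtain ⟨φ, hφ, e0, he0, rfl⟩ := (hmemD d).1 hd
      have h3 := ((mem_Ext F H S T ψ φ).1 (hM hφ)).2.2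
      induction e0 using Sym2.ind with
      | h x y =>
        rw [mem_extEdges] at he0
        rw [Sym2.map_mk, SimpleGraph.mem_edgeSet]
        exact h3 x y he0.1 he0.2.1 he0.2.2.1 he0.2.2.2
    have hUH : SimpleGraph.fromEdgeSet (D : Set (Sym2 (Fin n))) ≤ H := by
      intro a b hab
      rw [SimpleGraph.fromEdgeSet_adj] at hab
      exact (SimpleGraph.mem_edgeSet H).1 (hD _ (Finset.mem_coe.1 hab.1))
    have hUe : (SimpleGraph.fromEdgeSet (D : Set (Sym2 (Fin n)))).edgeSet =
        (D : Set (Sym2 (Fin n))) := Vale.Agent.Lib.P064.RG.h23_edgeSet_fromEdgeSet D hD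
    have hcardD : D.card = M.card * (extEdges F S T).card := by
      rw [hDdef, Finset.card_biUnion]
      · rw [Finset.sum_const_nat (m := (extEdges F S T).card)]
        intro φ hφ
        exact Finset.card_image_of_injOn (ls5_injOn (hM hφ))
      · intro φ hφ φ' hφ' hne
        exact ls5_disjoint hM hdisj hφ hφ' hne
    have hPinj : ∀ i, Function.Injective (fun z : {z // z ∈ T \ S} => en i z.1) := by
      intro i z z' hzz
      have h1 := ((mem_Ext F H S T ψ (en i)).1 (hM (hen_mem i))).2.1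
      exact Subtype.ext (h1 (mem_coe.2 (mem_sdiff.1 z.2).1) (mem_coe.2 (mem_sdiff.1 z'.2).1) hzz)
    have hPdisj : ∀ i j, i ≠ j → ∀ z z' : {z // z ∈ T \ S}, en i z.1 ≠ en j z'.1 := by
      intro i j hij z z'
      exact hdisj (en i) (hen_mem i) (en j) (hen_mem j) (hen_inj i j hij) z.1 z.2 z'.1 z'.2
    have hPR : ∀ i (z : {z // z ∈ T \ S}), en i z.1 ∉ (att F S T).image ψ := by
      intro i z hmem
      obtain ⟨y, hy, hyz⟩ := mem_image.1 hmem
      have hyS : y ∈ S := (ls5_mem_att.1 hy).1
      have h1 := (mem_Ext F H S T ψ (en i)).1 (hM (hen_mem i))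
      have hy' : y ∉ T \ S := fun hh => (mem_sdiff.1 hh).2 hyS
      have e1 : en i y = ψ y := h1.1 y hy'
      have e3 : en i y = en i z.1 := by rw [e1, hyz]
      have e4 : y = z.1 := h1.2.1 (mem_coe.2 (hST hyS)) (mem_coe.2 (mem_sdiff.1 z.2).1) e3
      exact (mem_sdiff.1 z.2).2 (e4 ▸ hyS)
    have hU : ∀ a b, (SimpleGraph.fromEdgeSet (D : Set (Sym2 (Fin n)))).Adj a b ↔ a ≠ b ∧
        ((∃ (i : Fin M.card) (z : {z // z ∈ T \ S}), a ∈ (att F S T).image ψ ∧ b = en i z.1 ∧
            ∃ y ∈ S, ψ y = a ∧ F.Adj y z.1) ∨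
          (∃ (i : Fin M.card) (z : {z // z ∈ T \ S}), b ∈ (att F S T).image ψ ∧ a = en i z.1 ∧
            ∃ y ∈ S, ψ y = b ∧ F.Adj y z.1) ∨
          (∃ (i : Fin M.card) (z z' : {z // z ∈ T \ S}), a = en i z.1 ∧ b = en i z'.1 ∧
            (F.Adj z.1 z'.1 ∨ F.Adj z'.1 z.1))) := by
      intro a b
      rw [SimpleGraph.fromEdgeSet_adj]
      constructor
      · rintro ⟨hab, hne⟩
        refine ⟨hne, ?_⟩
        obtain ⟨φ, hφ, e0, he0, heq⟩ := (hmemD _).1 (Finset.mem_coe.1 hab)
        obtain ⟨i, rfl⟩ := hen_surj φ hφ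
        have h1 := (mem_Ext F H S T ψ (en i)).1 (hM hφ)
        induction e0 using Sym2.ind with
        | h x y =>
          rw [mem_extEdges] at he0
          obtain ⟨hadj, hxT, hyT, hxy⟩ := he0
          rw [Sym2.map_mk, Sym2.eq_iff] at heq
          by_cases hxS : x ∈ S
          · have hyS : y ∉ S := by
              rcases hxy with h' | h'
              · exact absurd hxS h'
              · exact h'
            have hyTS : y ∈ T \ S := mem_sdiff.2 ⟨hyT, hyS⟩
            have ex : en i x = ψ x := h1.1 x (fun hh => (mem_sdiff.1 hh).2 hxS)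
            have hxatt : x ∈ att F S T := ls5_mem_att.2 ⟨hxS, y, hyTS, hadj⟩
            have hR : ψ x ∈ (att F S T).image ψ := mem_image_of_mem ψ hxatt
            rcases heq with ⟨h1', h2'⟩ | ⟨h1', h2'⟩
            · left
              refine ⟨i, ⟨y, hyTS⟩, ?_, h2'.symm, x, hxS, ?_, hadj⟩
              · rw [← h1', ex]
                exact hR
              · rw [← h1', ex]
            · right
              left
              refine ⟨i, ⟨y, hyTS⟩, ?_, h2'.symm, x, hxS, ?_, hadj⟩
              · rw [← h1', ex]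
                exact hR
              · rw [← h1', ex]
          · have hxTS : x ∈ T \ S := mem_sdiff.2 ⟨hxT, hxS⟩
            by_cases hyS : y ∈ S
            · have ey : en i y = ψ y := h1.1 y (fun hh => (mem_sdiff.1 hh).2 hyS)
              have hyatt : y ∈ att F S T := ls5_mem_att.2 ⟨hyS, x, hxTS, hadj.symm⟩
              have hR : ψ y ∈ (att F S T).image ψ := mem_image_of_mem ψ hyatt
              rcases heq with ⟨h1', h2'⟩ | ⟨h1', h2'⟩
              · right
                left
                refine ⟨i, ⟨x, hxTS⟩, ?_, h1'.symm, y, hyS, ?_, hadj.symm⟩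
                · rw [← h2', ey]
                  exact hR
                · rw [← h2', ey]
              · left
                refine ⟨i, ⟨x, hxTS⟩, ?_, h1'.symm, y, hyS, ?_, hadj.symm⟩
                · rw [← h2', ey]
                  exact hR
                · rw [← h2', ey]
            · have hyTS : y ∈ T \ S := mem_sdiff.2 ⟨hyT, hyS⟩
              right
              right
              rcases heq with ⟨h1', h2'⟩ | ⟨h1', h2'⟩
              · exact ⟨i, ⟨x, hxTS⟩, ⟨y, hyTS⟩, h1'.symm, h2'.symm, Or.inl hadj⟩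
              · exact ⟨i, ⟨y, hyTS⟩, ⟨x, hxTS⟩, h2'.symm, h1'.symm, Or.inr hadj⟩
      · rintro ⟨hne, hcase⟩
        refine ⟨?_, hne⟩
        rw [Finset.mem_coe, hmemD]
        rcases hcase with ⟨i, z, -, hb, y, hyS, hya, hadj⟩ | ⟨i, z, -, ha, y, hyS, hyb, hadj⟩ |
          ⟨i, z, z', ha, hb, hadj⟩
        · have h1 := (mem_Ext F H S T ψ (en i)).1 (hM (hen_mem i))
          have ey : en i y = ψ y := h1.1 y (fun hh => (mem_sdiff.1 hh).2 hyS)
          refine ⟨en i, hen_mem i, s(y, z.1), ?_, ?_⟩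
          · rw [mem_extEdges]
            exact ⟨hadj, hST hyS, (mem_sdiff.1 z.2).1, Or.inr (mem_sdiff.1 z.2).2⟩
          · rw [Sym2.map_mk, ey, hya, hb]
        · have h1 := (mem_Ext F H S T ψ (en i)).1 (hM (hen_mem i))
          have ey : en i y = ψ y := h1.1 y (fun hh => (mem_sdiff.1 hh).2 hyS)
          refine ⟨en i, hen_mem i, s(y, z.1), ?_, ?_⟩
          · rw [mem_extEdges]
            exact ⟨hadj, hST hyS, (mem_sdiff.1 z.2).1, Or.inr (mem_sdiff.1 z.2).2⟩
          · rw [Sym2.map_mk, ey, hyb, ha]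
            exact Sym2.eq_swap
        · refine ⟨en i, hen_mem i, s(z.1, z'.1), ?_, ?_⟩
          · rw [mem_extEdges]
            refine ⟨?_, (mem_sdiff.1 z.2).1, (mem_sdiff.1 z'.2).1, Or.inl (mem_sdiff.1 z.2).2⟩
            rcases hadj with h' | h'
            · exact h'
            · exact h'.symm
          · rw [Sym2.map_mk, ha, hb]
    have hcc := sunflower_copyCount_le ((att F S T).image ψ) M.card
      (fun i (z : {z // z ∈ T \ S}) => en i z.1) hPinj hPdisj hPR
      (fun r (z : {z // z ∈ T \ S}) => ∃ y ∈ S, ψ y = r ∧ F.Adj y z.1)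
      (fun (z z' : {z // z ∈ T \ S}) => F.Adj z.1 z'.1)
      (SimpleGraph.fromEdgeSet (D : Set (Sym2 (Fin n)))) hU
    have h1 := hyp_spanning h (SimpleGraph.fromEdgeSet (D : Set (Sym2 (Fin n)))) hUH
    have hcardU : (SimpleGraph.fromEdgeSet (D : Set (Sym2 (Fin n)))).edgeSet.ncard = D.card := by
      rw [hUe, Set.ncard_coe_finset]
    rw [hcardU, hcardD] at h1
    have hRcard : ((att F S T).image ψ).card ≤ (att F S T).card :=
      Finset.card_image_le
    have hn1 : 1 ≤ n := by omega
    have hcc2 : (⊤ : SimpleGraph (Fin n)).copyCount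
          (SimpleGraph.fromEdgeSet (D : Set (Sym2 (Fin n)))) ≤
        n ^ (att F S T).card * (n ^ (T \ S).card).choose M.card := by
      rw [hcardZ] at hcc
      exact hcc.trans (Nat.mul_le_mul_right _ (Nat.pow_le_pow_right hn1 hRcard))
    have hdesc : M.card.factorial * (n ^ (T \ S).card).choose M.card ≤
        (n ^ (T \ S).card) ^ M.card := by
      rw [← Nat.descFactorial_eq_factorial_mul_choose]
      exact Nat.descFactorial_le_pow _ _
    have hqpow : 0 ≤ q ^ (M.card * (extEdges F S T).card) := pow_nonneg hq0 _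
    have hfac : (0 : ℝ) ≤ (M.card.factorial : ℝ) := Nat.cast_nonneg _
    unfold wt
    calc (M.card.factorial : ℝ)
        ≤ (M.card.factorial : ℝ) * (((⊤ : SimpleGraph (Fin n)).copyCount
            (SimpleGraph.fromEdgeSet (D : Set (Sym2 (Fin n)))) : ℝ) *
              q ^ (M.card * (extEdges F S T).card)) := le_mul_of_one_le_right hfac h1
      _ ≤ (M.card.factorial : ℝ) *
            (((n ^ (att F S T).card * (n ^ (T \ S).card).choose M.card : ℕ) : ℝ) *
              q ^ (M.card * (extEdges F S T).card)) := by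
          apply mul_le_mul_of_nonneg_left _ hfac
          apply mul_le_mul_of_nonneg_right _ hqpow
          exact_mod_cast hcc2
      _ = (n : ℝ) ^ (att F S T).card *
            ((M.card.factorial * (n ^ (T \ S).card).choose M.card : ℕ) : ℝ) *
              q ^ (M.card * (extEdges F S T).card) := by
          push_cast
          ring
      _ ≤ (n : ℝ) ^ (att F S T).card * (((n ^ (T \ S).card) ^ M.card : ℕ) : ℝ) *
              q ^ (M.card * (extEdges F S T).card) := by
          apply mul_le_mul_of_nonneg_right _ hqpow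
          apply mul_le_mul_of_nonneg_left _ (by positivity)
          exact_mod_cast hdesc
      _ = (n : ℝ) ^ (att F S T).card *
            ((n : ℝ) ^ (T \ S).card * q ^ (extEdges F S T).card) ^ M.card := by
          push_cast
          ring
/-- The arithmetic of one component. -/
theorem deg_arith (m e t D : ℕ) (N q : ℝ) (hN : 0 ≤ N) (hq : 0 ≤ q) (hm : 1 ≤ m) (he : 1 ≤ e)
    (hme : m - 1 ≤ e) (hD : 1 ≤ D) (ht : (t.factorial : ℝ) ≤ (N * q ^ e) ^ t) :
    ((m ^ 2 * t * D ^ (m - 1) : ℕ) : ℝ) ≤ N * (12 * D * q) ^ e := by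
  have hμ : 0 ≤ N * q ^ e := by positivity
  have ht' : (t : ℝ) ≤ Real.exp 1 * (N * q ^ e) :=
    Vale.Agent.Lib.P064.H88.le_exp_mul_of_factorial_le_pow hμ ht
  have hexp : Real.exp 1 ≤ 3 := (Real.exp_one_lt_d9.trans (by norm_num)).le
  have hD' : (1 : ℝ) ≤ D := by exact_mod_cast hD
  have hDq : 0 ≤ (D : ℝ) * q := by positivity
  rcases Nat.lt_or_ge m 2 with h | h
  · have hm1 : m = 1 := by omega
    subst hm1
    have h12 : (12 : ℝ) ≤ (12 * (D : ℝ)) ^ e :=
      le_trans (by linarith) (le_self_pow₀ (by linarith) (by omega))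
    calc ((1 ^ 2 * t * D ^ (1 - 1) : ℕ) : ℝ) = (t : ℝ) := by simp
      _ ≤ Real.exp 1 * (N * q ^ e) := ht'
      _ ≤ 12 * (N * q ^ e) := mul_le_mul_of_nonneg_right (by linarith) hμ
      _ ≤ (12 * (D : ℝ)) ^ e * (N * q ^ e) := mul_le_mul_of_nonneg_right h12 hμ
      _ = N * (12 * D * q) ^ e := by
          rw [mul_pow (12 * (D : ℝ)) q e]
          ring
  · have hc := Vale.Agent.Lib.P064.H88.component_arith h hme hD' hq hN
    have hDpow : (0 : ℝ) ≤ (D : ℝ) ^ (m - 1) := by positivity
    calc ((m ^ 2 * t * D ^ (m - 1) : ℕ) : ℝ) = (m : ℝ) ^ 2 * t * (D : ℝ) ^ (m - 1) := by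
          push_cast
          ring
      _ ≤ (m : ℝ) ^ 2 * (Real.exp 1 * (N * q ^ e)) * (D : ℝ) ^ (m - 1) := by
          apply mul_le_mul_of_nonneg_right _ hDpow
          exact mul_le_mul_of_nonneg_left ht' (by positivity)
      _ = Real.exp 1 * (m : ℝ) ^ 2 * (D : ℝ) ^ (m - 1) * (N * q ^ e) := by ring
      _ ≤ N * (4 * Real.exp 1 * D * q) ^ e := hc
      _ ≤ N * (12 * D * q) ^ e := by
          apply mul_le_mul_of_nonneg_left _ hN
          apply pow_le_pow_left₀ (by positivity)
          nlinarith [mul_nonneg (sub_nonneg.2 hexp) hDq]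

/-- One component: if no edge of `F` leaves `S` and `T \ S` is connected in `F`, then every map
has at most `n ^ m * (12 * D * q) ^ e'` extensions from `S` to `T`. -/
theorem deg_step {n : ℕ} (hn : 2 ≤ n) (H : SimpleGraph (Fin n)) (F : SimpleGraph W) {q : ℝ}
    (hq0 : 0 ≤ q) (h : SubgraphsExpected n H q) (D : ℕ) (hD : 1 ≤ D)
    (hdeg : ∀ v : Fin n, ∀ N : Finset (Fin n), (∀ u ∈ N, H.Adj v u) → N.card ≤ D)
    (S T : Finset W) (hST : S ⊂ T) (hcl : ∀ y ∈ S, ∀ z, F.Adj y z → z ∈ S)
    (hatt : ∀ x ∈ T \ S, Attached F (insert x S) T) (ψ : W → Fin n) :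
    ((Ext F H S T ψ).card : ℝ) ≤ wt n (12 * D * q) F S T := by
  classical
  obtain ⟨M, hMsub, hMD, hmeet⟩ := ls6_meets H F S T hST ψ
  have hatt0 : att F S T = ∅ := by
    refine Finset.eq_empty_of_forall_notMem (fun y hy => ?_)
    obtain ⟨hyS, z, hz, hadj⟩ := ls5_mem_att.1 hy
    exact (Finset.mem_sdiff.1 hz).2 (hcl y hyS z hadj)
  have hsun := sunflower_bound_att hn H F hq0 h S T hST.1 ψ M hMsub hMD
  rw [hatt0, Finset.card_empty, pow_zero, one_mul] at hsun
  obtain ⟨x0, hx0⟩ : (T \ S).Nonempty := by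
    rw [Finset.nonempty_iff_ne_empty]
    intro h0
    rw [Finset.sdiff_eq_empty_iff_subset] at h0
    exact hST.2 h0
  have hm1 : 1 ≤ (T \ S).card := Finset.card_pos.2 ⟨x0, hx0⟩
  have hsubx : ∀ x ∈ T \ S, insert x S ⊆ T := fun x hx =>
    Finset.insert_subset (Finset.mem_sdiff.1 hx).1 hST.1
  have hcardx : ∀ x ∈ T \ S, (T \ insert x S).card = (T \ S).card - 1 := by
    intro x hx
    have : T \ insert x S = (T \ S).erase x := by
      ext w
      simp only [Finset.mem_sdiff, Finset.mem_insert, Finset.mem_erase]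
      tauto
    rw [this, Finset.card_erase_of_mem hx]
  have hpiece : ∀ (x : W), x ∈ T \ S → ∀ (v : Fin n),
      (Ext F H (insert x S) T (Function.update ψ x v)).card ≤ D ^ ((T \ S).card - 1) := by
    intro x hx v
    exact Vale.Agent.Lib.P064.H14.rooted_count H F D hdeg ((T \ S).card - 1) (insert x S) T
      (hsubx x hx) (hcardx x hx) (hatt x hx) (Function.update ψ x v)
  have hme : (T \ S).card - 1 ≤ (extEdges F S T).card := by
    have h1 := Vale.Agent.Lib.P064.H14.attached_card_le F ((T \ S).card - 1) (insert x0 S) T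
      (hsubx x0 hx0) (hcardx x0 hx0) (hatt x0 hx0)
    have h2 := extEdges_card_add F (Finset.subset_insert x0 S) (hsubx x0 hx0)
    omega
  have hcover : Ext F H S T ψ ⊆ M.biUnion (fun φ' => (T \ S).biUnion (fun x' =>
      (T \ S).biUnion (fun x => Ext F H (insert x S) T (Function.update ψ x (φ' x'))))) := by
    intro φ hφ
    obtain ⟨φ', hφ', x', hx', x, hx, hxx⟩ := hmeet φ hφ
    rw [Finset.mem_biUnion]
    refine ⟨φ', hφ', ?_⟩
    rw [Finset.mem_biUnion]
    refine ⟨x', hx', ?_⟩
    rw [Finset.mem_biUnion]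
    refine ⟨x, hx, ?_⟩
    have := Ext_update F H hφ hx
    rw [hxx] at this
    exact this
  have h1 : ∀ φ' ∈ M, ∀ x' ∈ T \ S,
      ((T \ S).biUnion (fun x => Ext F H (insert x S) T (Function.update ψ x (φ' x')))).card
        ≤ (T \ S).card * D ^ ((T \ S).card - 1) := by
    intro φ' _ x' _
    exact Finset.card_biUnion_le_card_mul _ _ _ (fun x hx => hpiece x hx (φ' x'))
  have h2 : ∀ φ' ∈ M,
      ((T \ S).biUnion (fun x' =>
        (T \ S).biUnion (fun x => Ext F H (insert x S) T (Function.update ψ x (φ' x'))))).card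
        ≤ (T \ S).card * ((T \ S).card * D ^ ((T \ S).card - 1)) := by
    intro φ' hφ'
    exact Finset.card_biUnion_le_card_mul _ _ _ (fun x' hx' => h1 φ' hφ' x' hx')
  have h3 := Finset.card_biUnion_le_card_mul M _ _ h2
  have hcount : (Ext F H S T ψ).card ≤ (T \ S).card ^ 2 * M.card * D ^ ((T \ S).card - 1) :=
    calc (Ext F H S T ψ).card ≤ _ := Finset.card_le_card hcover
      _ ≤ M.card * ((T \ S).card * ((T \ S).card * D ^ ((T \ S).card - 1))) := h3
      _ = (T \ S).card ^ 2 * M.card * D ^ ((T \ S).card - 1) := by ring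
  have hnR : (0 : ℝ) ≤ (n : ℝ) ^ (T \ S).card := by positivity
  rcases Nat.eq_zero_or_pos (extEdges F S T).card with he0 | he1
  · have h4 := Ext_card_le_pow F H S T ψ
    rw [Fintype.card_fin] at h4
    unfold wt
    rw [he0, pow_zero, mul_one]
    exact_mod_cast h4
  · unfold wt at hsun ⊢
    have h5 := deg_arith (T \ S).card (extEdges F S T).card M.card D ((n : ℝ) ^ (T \ S).card) q
      hnR hq0 hm1 he1 hme hD hsun
    calc ((Ext F H S T ψ).card : ℝ)
        ≤ (((T \ S).card ^ 2 * M.card * D ^ ((T \ S).card - 1) : ℕ) : ℝ) := by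
          exact_mod_cast hcount
      _ ≤ (n : ℝ) ^ (T \ S).card * (12 * D * q) ^ (extEdges F S T).card := h5

/-- Bounded-degree hosts: the labelled count of any pattern. -/
theorem deg_labelled_pow {n : ℕ} (hn : 2 ≤ n) (H : SimpleGraph (Fin n)) {q : ℝ}
    (hq0 : 0 ≤ q) (h : SubgraphsExpected n H q) (D : ℕ) (hD : 1 ≤ D)
    (hdeg : ∀ v : Fin n, ∀ N : Finset (Fin n), (∀ u ∈ N, H.Adj v u) → N.card ≤ D)
    (W : Type) [Fintype W] [DecidableEq W] (F : SimpleGraph W) :
    (H.labelledCopyCount F : ℝ) ≤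
      (n : ℝ) ^ Fintype.card W * (12 * D * q) ^ F.edgeSet.ncard := by
  classical
  have hc : (0 : ℝ) ≤ 12 * D * q := by positivity
  rw [labelledCopyCount_eq_natCard]
  have ψ0 : W → Fin n := fun _ => ⟨0, by omega⟩
  have h1 := ls10_card_copy_le H F ψ0
  have h4 := chain_of_step H F (12 * D * q) hc
    (fun S T hST hcl hatt ψ => deg_step hn H F hq0 h D hD hdeg S T hST hcl hatt ψ)
    ∅ (fun y hy => absurd hy (Finset.notMem_empty y)) ψ0
  unfold wt at h4
  rw [Finset.sdiff_empty, Finset.card_univ, ls10_card_extEdges_univ] at h4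
  calc (Nat.card (Copy F H) : ℝ) ≤ ((Ext F H ∅ univ ψ0).card : ℝ) := by exact_mod_cast h1
    _ ≤ (n : ℝ) ^ Fintype.card W * (12 * D * q) ^ F.edgeSet.ncard := h4

/-- From a bound on the number of neighbours to the bound on every set of neighbours. -/
theorem deg_bridge {n : ℕ} {H : SimpleGraph (Fin n)} {D : ℕ}
    (hdeg : ∀ v, (H.neighborSet v).ncard ≤ D) :
    ∀ v : Fin n, ∀ N : Finset (Fin n), (∀ u ∈ N, H.Adj v u) → N.card ≤ D := by
  intro v N hN
  have h1 : (N : Set (Fin n)) ⊆ H.neighborSet v := fun u hu => hN u (Finset.mem_coe.1 hu)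
  have h2 := Set.ncard_le_ncard h1 (Set.toFinite _)
  rw [Set.ncard_coe_finset] at h2
  exact h2.trans (hdeg v)

/-- Bounded-degree hosts: the labelled inequality with a falling factorial, for patterns without
isolated vertices. -/
theorem deg_labelled_main {n : ℕ} (hn : 2 ≤ n) (H : SimpleGraph (Fin n)) {q : ℝ}
    (hq0 : 0 ≤ q) (h : SubgraphsExpected n H q) (D : ℕ) (hD : 1 ≤ D)
    (hdeg : ∀ v, (H.neighborSet v).ncard ≤ D)
    (W : Type) [Fintype W] (F : SimpleGraph W) (hiso : ∀ w, ∃ w', F.Adj w w') :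
    (H.labelledCopyCount F : ℝ) ≤
      (n.descFactorial (Fintype.card W) : ℝ) * (90 * D * q) ^ F.edgeSet.ncard := by
  classical
  have hDq : (0 : ℝ) ≤ D * q := by positivity
  by_cases hw : Fintype.card W ≤ n
  swap
  · rw [labelled_eq_zero_of_card_lt H F (not_le.1 hw)]
    simp only [Nat.cast_zero]
    have h0 : (0 : ℝ) ≤ 90 * D * q := by positivity
    positivity
  have hcard2 := card_le_two_mul_edges F hiso
  have hconv := pow_le_exp_pow_mul_descFactorial n (Fintype.card W) hw
  have hexp1 : 1 ≤ Real.exp 1 := Real.one_le_exp (by norm_num)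
  have hD0 : (0 : ℝ) ≤ (n.descFactorial (Fintype.card W) : ℝ) := Nat.cast_nonneg _
  have hexp2 : Real.exp 1 ^ 2 ≤ 7.5 := by
    have h1 : Real.exp 1 < 2.7182818286 := Real.exp_one_lt_d9
    have h0 : (0 : ℝ) < Real.exp 1 := Real.exp_pos 1
    have h2 : Real.exp 1 ^ 2 < 2.7182818286 ^ 2 := by gcongr
    norm_num at h2 ⊢
    linarith
  have hp := deg_labelled_pow hn H hq0 h D hD (deg_bridge hdeg) W F
  have h12 : (0 : ℝ) ≤ 12 * D * q := by positivity
  set e := F.edgeSet.ncard with he
  calc (H.labelledCopyCount F : ℝ)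
      ≤ (n : ℝ) ^ Fintype.card W * (12 * D * q) ^ e := hp
    _ ≤ (Real.exp 1 ^ (Fintype.card W) * (n.descFactorial (Fintype.card W) : ℝ)) *
          (12 * D * q) ^ e := by
        gcongr
    _ ≤ (Real.exp 1 ^ (2 * e) * (n.descFactorial (Fintype.card W) : ℝ)) *
          (12 * D * q) ^ e := by
        gcongr
    _ = (n.descFactorial (Fintype.card W) : ℝ) *
          (Real.exp 1 ^ 2 * (12 * D * q)) ^ e := by
        rw [pow_mul, mul_pow]
        ring
    _ ≤ (n.descFactorial (Fintype.card W) : ℝ) * (90 * D * q) ^ e := by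
        have hb : Real.exp 1 ^ 2 * (12 * D * q) ≤ 90 * D * q := by
          nlinarith [mul_nonneg (sub_nonneg.2 hexp2) hDq]
        have hb0 : 0 ≤ Real.exp 1 ^ 2 * (12 * D * q) := by positivity
        exact mul_le_mul_of_nonneg_left (pow_le_pow_left₀ hb0 hb e) hD0

/-- **Bounded-degree hosts: the labelled copy-count inequality for all patterns.** If every
vertex of `H` has at most `D` neighbours and every subgraph of `H` has expected count at least
one at density `q`, then every graph `F` has at most `(n)_{v(F)} * min(1, 90 D q)^{e(F)}`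
labelled copies in `H`. -/
theorem bd_labelled_le_min {n : ℕ} (hn : 2 ≤ n) {H : SimpleGraph (Fin n)} {q : ℝ} (D : ℕ)
    (hD : 1 ≤ D) (hdeg : ∀ v, (H.neighborSet v).ncard ≤ D) (hq0 : 0 ≤ q)
    (h : SubgraphsExpected n H q) (W : Type) [Fintype W] (F : SimpleGraph W) :
    (H.labelledCopyCount F : ℝ) ≤
      (n.descFactorial (Fintype.card W) : ℝ) * (min 1 (90 * D * q)) ^ F.edgeSet.ncard := by
  classical
  by_cases hq : 90 * D * q ≤ 1
  · rw [min_eq_right hq]
    have key := labelled_of_support H F ((90 * D * q) ^ F.edgeSet.ncard) ?_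
    · rw [Fintype.card_fin] at key
      exact key
    rw [Fintype.card_fin, ← ncard_edgeSet_induce_support F]
    exact deg_labelled_main hn H hq0 h D hD hdeg F.support (F.induce F.support)
      (induce_support_no_isolated F)
  · rw [not_le] at hq
    rw [min_eq_left hq.le, one_pow, mul_one]
    have h1 := labelled_le_top H F
    rw [labelledCopyCount_top, Fintype.card_fin] at h1
    exact_mod_cast h1

end Vale.Agent.Lib.P064.H49
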